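import Mathlib

/-!
# P237: concave profiles, tails of the circle, and scalar inequalities of the transport estimate

Powers of a nonnegative concave function are log-concave; this bounds the tail of the power by the
value at the point, hence the Jacobian `q` of the transport to the circle.
-/

namespace Vale.Agent.P237.Petty.LargeN

open MeasureTheory Set intervalIntegral

section Concave

variable {g : ℝ → ℝ}

theorem mul_shift_le (hc : ConcaveOn ℝ (Icc 0 1) g) (hg : ∀ t ∈ Icc (0 : ℝ) 1, 0 ≤ g t)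
    {x t : ℝ} (hx : 0 ≤ x) (ht : 0 ≤ t) (hxt : x + t ≤ 1) :
    g 0 * g (x + t) ≤ g x * g t := by
  rcases eq_or_lt_of_le (add_nonneg hx ht) with h | h
  · have hx0 : x = 0 := by linarith
    have ht0 : t = 0 := by linarith
    simp [hx0, ht0]
  have hm0 : (0 : ℝ) ∈ Icc (0 : ℝ) 1 := by norm_num
  have hm : x + t ∈ Icc (0 : ℝ) 1 := ⟨h.le, hxt⟩
  have key : ∀ u v : ℝ, 0 ≤ u → 0 ≤ v → u + v = x + t →
      v / (x + t) * g 0 + u / (x + t) * g (x + t) ≤ g u := fun u v hu hv huv => by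
    have := hc.2 hm0 hm (div_nonneg hv h.le) (div_nonneg hu h.le) (by field_simp; linarith)
    simpa [smul_eq_mul, div_mul_cancel₀ u h.ne'] using this
  have h1 := key x t hx ht rfl
  have h2 := key t x ht hx (add_comm t x)
  have ha := hg 0 hm0
  have hb := hg _ hm
  refine le_trans ?_ (mul_le_mul h1 h2 (by positivity) (hg x ⟨hx, by linarith⟩))
  have e : x / (x + t) + t / (x + t) = 1 := by field_simp
  set a := x / (x + t)
  set b := t / (x + t)
  have h3 : 0 ≤ a * b := mul_nonneg (div_nonneg hx h.le) (div_nonneg ht h.le)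
  have hb1 : b = 1 - a := by linarith
  rw [hb1] at h3 ⊢
  nlinarith [mul_nonneg h3 (sq_nonneg (g 0 - g (x + t)))]

/-- Beyond `t` a concave function lies below the exponential of its chord. -/
theorem rpow_tail_le (hc : ConcaveOn ℝ (Icc 0 1) g) (hg : ∀ t ∈ Icc (0 : ℝ) 1, 0 ≤ g t)
    {t y : ℝ} (ht : 0 < t) (hty : t ≤ y) (hy : y ≤ 1) :
    g 0 ^ (1 - t / y) * g y ^ (t / y) ≤ g t := by
  have hy0 : 0 < y := ht.trans_le hty
  have h1 : 0 ≤ 1 - t / y := sub_nonneg.2 ((div_le_one hy0).2 hty)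
  have h := hc.2 (show (0 : ℝ) ∈ Icc (0 : ℝ) 1 by norm_num) (show y ∈ Icc (0 : ℝ) 1 from ⟨hy0.le, hy⟩)
    h1 (div_nonneg ht.le hy0.le) (by ring)
  simp only [smul_eq_mul, mul_zero, zero_add, div_mul_cancel₀ t hy0.ne'] at h
  exact (Real.geom_mean_le_arith_mean2_weighted h1 (div_nonneg ht.le hy0.le) (hg 0 (by norm_num))
    (hg y ⟨hy0.le, hy⟩) (by ring)).trans h

/-- The monotone hazard: the tail of `g ^ m` is at most the value times the total mass over the
value at the origin. -/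
theorem tail_mul_le (hc : ConcaveOn ℝ (Icc 0 1) g) (hg : ∀ t ∈ Icc (0 : ℝ) 1, 0 ≤ g t)
    (hcont : ContinuousOn g (Icc 0 1)) (m : ℕ) {t : ℝ}
    (ht : t ∈ Icc (0 : ℝ) 1) :
    g 0 ^ m * ∫ y in t..1, g y ^ m ≤ g t ^ m * ∫ y in (0 : ℝ)..1, g y ^ m := by
  have hi : ∀ a b, a ∈ Icc (0 : ℝ) 1 → b ∈ Icc (0 : ℝ) 1 →
      IntervalIntegrable (fun y => g y ^ m) volume a b := fun a b ha hb =>
    ((hcont.pow m).mono (uIcc_subset_Icc ha hb)).intervalIntegrable
  have h01 : (0 : ℝ) ∈ Icc (0 : ℝ) 1 := by norm_num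
  have h11 : (1 : ℝ) ∈ Icc (0 : ℝ) 1 := by norm_num
  have e : ∫ y in t..1, g y ^ m = ∫ x in (0 : ℝ)..(1 - t), g (x + t) ^ m := by
    rw [intervalIntegral.integral_comp_add_right (f := fun y => g y ^ m)]
    simp
  rw [e, ← intervalIntegral.integral_const_mul, ← intervalIntegral.integral_const_mul]
  have h1t : 1 - t ∈ Icc (0 : ℝ) 1 := ⟨by linarith [ht.2], by linarith [ht.1]⟩
  have hL : IntervalIntegrable (fun x => g 0 ^ m * g (x + t) ^ m) volume 0 (1 - t) := by
    have hmap : MapsTo (fun x => x + t) (uIcc (0 : ℝ) (1 - t)) (Icc 0 1) := by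
      intro x hx
      rw [uIcc_of_le h1t.1] at hx
      exact ⟨by linarith [hx.1, ht.1], by linarith [hx.2]⟩
    exact (((hcont.comp (continuous_add_const t).continuousOn hmap).pow m).const_smul
      (g 0 ^ m)).intervalIntegrable
  refine (intervalIntegral.integral_mono_on h1t.1 hL ((hi 0 _ h01 h1t).const_mul (g t ^ m)) ?_).trans ?_
  · intro x hx
    rw [← mul_pow, ← mul_pow, mul_comm (g t)]
    exact pow_le_pow_left₀ (mul_nonneg (hg 0 h01) (hg _ ⟨by linarith [hx.1, ht.1],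
      by linarith [hx.2]⟩)) (mul_shift_le hc hg hx.1 ht.1 (by linarith [hx.2])) m
  · rw [← intervalIntegral.integral_add_adjacent_intervals
      ((hi 0 _ h01 h1t).const_mul _) ((hi _ _ h1t h11).const_mul _)]
    refine le_add_of_nonneg_right (intervalIntegral.integral_nonneg h1t.2 fun x hx => ?_)
    exact mul_nonneg (pow_nonneg (hg t ht) m) (pow_nonneg (hg x ⟨h1t.1.trans hx.1, hx.2⟩) m)

/-- Log-concavity of `g ^ m`: the tail is at most `g t ^ m * t / V` with `V = log (g 0 ^ m / g t ^ m)`. -/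
theorem tail_le_log (hc : ConcaveOn ℝ (Icc 0 1) g) (hg : ∀ t ∈ Icc (0 : ℝ) 1, 0 ≤ g t)
    (hcont : ContinuousOn g (Icc 0 1)) (m : ℕ) {t : ℝ}
    (ht0 : 0 < t) (ht1 : t ≤ 1) (hgt : 0 < g t) (hV : 0 < Real.log (g 0 ^ m / g t ^ m)) :
    ∫ y in t..1, g y ^ m ≤ g t ^ m * t / Real.log (g 0 ^ m / g t ^ m) := by
  set V := Real.log (g 0 ^ m / g t ^ m) with hVdef
  have hpt : ∀ y ∈ Icc t 1, g y ^ m ≤ g t ^ m * Real.exp (-V * ((y - t) / t)) := by
    intro y hy
    have hy0 : 0 < y := ht0.trans_le hy.1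
    rcases (hg y ⟨hy0.le, hy.2⟩).eq_or_lt with h | hgy
    · rcases Nat.eq_zero_or_pos m with rfl | hm
      · simp [hVdef] at hV
      · rw [← h, zero_pow hm.ne']
        positivity
    have hg0 : 0 < g 0 := by
      rcases (hg 0 (by norm_num)).eq_or_lt with h | h
      · rcases Nat.eq_zero_or_pos m with rfl | hm
        · simp [hVdef] at hV
        · simp [hVdef, ← h, zero_pow hm.ne'] at hV
      · exact h
    have h1 := rpow_tail_le hc hg ht0 hy.1 hy.2
    have h2 := Real.log_le_log (mul_pos (Real.rpow_pos_of_pos hg0 _) (Real.rpow_pos_of_pos hgy _)) h1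
    rw [Real.log_mul (Real.rpow_pos_of_pos hg0 _).ne' (Real.rpow_pos_of_pos hgy _).ne',
      Real.log_rpow hg0, Real.log_rpow hgy] at h2
    rw [← Real.log_le_log_iff (pow_pos hgy m) (mul_pos (pow_pos hgt m) (Real.exp_pos _)),
      Real.log_mul (pow_pos hgt m).ne' (Real.exp_pos _).ne', Real.log_exp, hVdef,
      Real.log_div (pow_pos hg0 m).ne' (pow_pos hgt m).ne', Real.log_pow, Real.log_pow, Real.log_pow]
    have h3 := mul_le_mul_of_nonneg_left h2 (mul_nonneg m.cast_nonneg hy0.le : (0 : ℝ) ≤ m * y)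
    rw [← sub_nonneg] at h3 ⊢
    have e : (m : ℝ) * y * Real.log (g t) -
        m * y * ((1 - t / y) * Real.log (g 0) + t / y * Real.log (g y)) =
        t * (m * Real.log (g t) + -(m * Real.log (g 0) - m * Real.log (g t)) * ((y - t) / t) -
          m * Real.log (g y)) := by
      field_simp
      ring
    rw [e] at h3
    exact nonneg_of_mul_nonneg_right h3 ht0
  have hmem : uIcc t 1 ⊆ Icc (0 : ℝ) 1 := by
    rw [uIcc_of_le ht1]; exact Icc_subset_Icc ht0.le le_rfl
  refine (intervalIntegral.integral_mono_on ht1 ((hcont.pow m).mono hmem).intervalIntegrable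
    (Continuous.intervalIntegrable (by fun_prop) _ _) hpt).trans ?_
  have hd : ∀ y ∈ uIcc t 1, HasDerivAt (fun y => -(g t ^ m * t / V) * Real.exp (-V * ((y - t) / t)))
      (g t ^ m * Real.exp (-V * ((y - t) / t))) y := by
    intro y _
    refine ((((hasDerivAt_id y).sub_const t).div_const t).const_mul (-V)).exp.const_mul
      (-(g t ^ m * t / V)) |>.congr_deriv ?_
    simp only [id_eq]
    field_simp
  rw [intervalIntegral.integral_eq_sub_of_hasDerivAt hd (Continuous.intervalIntegrable (by fun_prop) _ _)]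
  simp only [sub_self, zero_div, mul_zero, Real.exp_zero, mul_one, sub_neg_eq_add, neg_mul]
  have : 0 ≤ g t ^ m * t / V * Real.exp (-(V * ((1 - t) / t))) := by positivity
  linarith

end Concave

/-- A lower bound of the tail of a power of the half circle. -/
theorem circle_tail_ge (m : ℕ) (hm : 1 ≤ m) {s : ℝ} (hs0 : 0 ≤ s) (hs1 : s < 1) :
    (1 - s ^ 2) / (6 * ((m : ℝ) * s + √(m : ℝ))) * √(1 - s ^ 2) ^ m ≤
      ∫ u in s..1, √(1 - u ^ 2) ^ m := by
  have hm' : (1 : ℝ) ≤ m := by exact_mod_cast hm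
  have hr : 1 ≤ √(m : ℝ) := Real.one_le_sqrt.2 hm'
  have hr2 : √(m : ℝ) ^ 2 = m := Real.sq_sqrt (by linarith)
  set c2 := 1 - s ^ 2 with hc2
  have hc : 0 < c2 := by nlinarith
  set h := c2 / (3 * ((m : ℝ) * s + √(m : ℝ))) with hh
  have hms : 0 ≤ (m : ℝ) * s := mul_nonneg (by linarith) hs0
  have hh0 : 0 < h := by positivity
  have hsh : s + h ≤ 1 := by
    have : h ≤ c2 / 3 := by
      rw [hh]; exact div_le_div_of_nonneg_left hc.le (by norm_num) (by linarith)
    nlinarith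
  have hkey : (1 : ℝ) / 4 * c2 ^ m ≤ (1 - (s + h) ^ 2) ^ m := by
    have hx : (m : ℝ) * (2 * s * h + h ^ 2) ≤ 2 / 3 * c2 := by
      have h1 : ((m : ℝ) * s + √(m : ℝ)) * h = c2 / 3 := by rw [hh]; field_simp
      have h2 : √(m : ℝ) * h ≤ 2 := by nlinarith [mul_nonneg hms hh0.le]
      have h3 := mul_le_mul_of_nonneg_left h2 (show 0 ≤ √(m : ℝ) * h by positivity)
      have h4 : (m : ℝ) * h ^ 2 = √(m : ℝ) * h * (√(m : ℝ) * h) := by
        linear_combination -(h ^ 2) * hr2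
      nlinarith
    have hB := one_add_mul_le_pow (a := -((2 * s * h + h ^ 2) / c2))
      (by
        have : (2 * s * h + h ^ 2) / c2 ≤ 1 := by
          rw [div_le_one hc]; nlinarith [show 0 ≤ 2 * s * h + h ^ 2 by positivity]
        linarith) m
    have h4 : (1 : ℝ) / 4 ≤ 1 + (m : ℝ) * -((2 * s * h + h ^ 2) / c2) := by
      have : (m : ℝ) * ((2 * s * h + h ^ 2) / c2) ≤ 3 / 4 := by
        rw [← mul_div_assoc, div_le_iff₀ hc]; linarith
      linarith
    have := mul_le_mul_of_nonneg_right (h4.trans hB) (pow_nonneg hc.le m)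
    rw [← mul_pow] at this
    refine this.trans (le_of_eq ?_)
    congr 1
    field_simp
    ring
  have hroot : (1 : ℝ) / 2 * √c2 ^ m ≤ √(1 - (s + h) ^ 2) ^ m := by
    have h0 : 0 ≤ 1 - (s + h) ^ 2 := by nlinarith
    refine (pow_le_pow_iff_left₀ (by positivity) (by positivity) two_ne_zero).1 ?_
    rw [mul_pow, ← pow_mul, ← pow_mul, mul_comm m 2, pow_mul, pow_mul, Real.sq_sqrt hc.le,
      Real.sq_sqrt h0]
    linarith
  have hi : ∀ a b, IntervalIntegrable (fun u : ℝ => √(1 - u ^ 2) ^ m) volume a b := fun a b =>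
    Continuous.intervalIntegrable (by fun_prop) _ _
  rw [← intervalIntegral.integral_add_adjacent_intervals (hi s (s + h)) (hi (s + h) 1)]
  refine le_add_of_le_of_nonneg ?_ (intervalIntegral.integral_nonneg hsh fun u _ => by positivity)
  have hmono : ∀ u ∈ Icc s (s + h), √(1 - (s + h) ^ 2) ^ m ≤ √(1 - u ^ 2) ^ m := fun u hu =>
    pow_le_pow_left₀ (Real.sqrt_nonneg _) (Real.sqrt_le_sqrt (by
      nlinarith [hu.1, hu.2])) m
  refine le_trans ?_ (intervalIntegral.integral_mono_on (by linarith) intervalIntegrable_const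
    (hi _ _) hmono)
  rw [intervalIntegral.integral_const, smul_eq_mul, add_sub_cancel_left]
  refine le_trans (le_of_eq ?_) (mul_le_mul_of_nonneg_left hroot hh0.le)
  rw [hh]
  field_simp
  ring

/-- The Jacobian `q = c(s)^m / g(t)^m` of the transport is bounded by the monotone hazard. -/
theorem jacobian_le {g : ℝ → ℝ} (hc : ConcaveOn ℝ (Icc 0 1) g)
    (hg : ∀ t ∈ Icc (0 : ℝ) 1, 0 ≤ g t)
    (hcont : ContinuousOn g (Icc 0 1)) (m : ℕ) (hm : 1 ≤ m) {s t : ℝ} (hs0 : 0 ≤ s) (hs1 : s < 1)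
    (ht : t ∈ Icc (0 : ℝ) 1) (hgt : 0 < g t) (hg0 : 0 < g 0)
    (htr : ∫ y in t..1, g y ^ m = ∫ u in s..1, √(1 - u ^ 2) ^ m) :
    √(1 - s ^ 2) ^ m / g t ^ m ≤
      (∫ y in (0 : ℝ)..1, g y ^ m) / g 0 ^ m * (6 * ((m : ℝ) * s + √(m : ℝ))) / (1 - s ^ 2) := by
  have h1 := tail_mul_le hc hg hcont m ht
  have h2 := circle_tail_ge m hm hs0 hs1
  rw [← htr] at h2
  have hc2 : 0 < 1 - s ^ 2 := by nlinarith
  have hsm : 0 < (m : ℝ) * s + √(m : ℝ) :=
    add_pos_of_nonneg_of_pos (mul_nonneg m.cast_nonneg hs0) (Real.sqrt_pos.2 (by exact_mod_cast hm))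
  have h0 := pow_pos hg0 m
  have h3 := (mul_le_mul_of_nonneg_left h2 h0.le).trans h1
  rw [div_mul_eq_mul_div, ← mul_div_assoc, div_le_iff₀ (by positivity)] at h3
  rw [div_mul_eq_mul_div, div_div, div_le_div_iff₀ (pow_pos hgt m) (by positivity)]
  linarith

/-- The Jacobian `q = c(s)^m / g(t)^m` is bounded by `t / V`, `V = log (g 0 ^ m / g t ^ m)`. -/
theorem jacobian_le_log {g : ℝ → ℝ} (hc : ConcaveOn ℝ (Icc 0 1) g)
    (hg : ∀ t ∈ Icc (0 : ℝ) 1, 0 ≤ g t) (hcont : ContinuousOn g (Icc 0 1)) (m : ℕ) (hm : 1 ≤ m)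
    {s t : ℝ} (hs0 : 0 ≤ s) (hs1 : s < 1) (ht0 : 0 < t) (ht1 : t ≤ 1) (hgt : 0 < g t)
    (hV : 0 < Real.log (g 0 ^ m / g t ^ m))
    (htr : ∫ y in t..1, g y ^ m = ∫ u in s..1, √(1 - u ^ 2) ^ m) :
    √(1 - s ^ 2) ^ m / g t ^ m ≤
      t / Real.log (g 0 ^ m / g t ^ m) * (6 * ((m : ℝ) * s + √(m : ℝ))) / (1 - s ^ 2) := by
  have h1 := tail_le_log hc hg hcont m ht0 ht1 hgt hV
  have h2 := circle_tail_ge m hm hs0 hs1
  rw [← htr] at h2
  have h3 := h2.trans h1
  have hc2 : 0 < 1 - s ^ 2 := by nlinarith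
  have hsm : 0 < (m : ℝ) * s + √(m : ℝ) :=
    add_pos_of_nonneg_of_pos (mul_nonneg m.cast_nonneg hs0) (Real.sqrt_pos.2 (by exact_mod_cast hm))
  rw [div_mul_eq_mul_div, div_le_div_iff₀ (by positivity) hV] at h3
  rw [div_mul_eq_mul_div, div_div, div_le_div_iff₀ (pow_pos hgt m) (by positivity)]
  linarith

/-! ### Scalar inequalities for `φ r = r - 1 - log r`, `q = 1 / r` -/

/-- The convex gauge of the transport. -/
noncomputable def phi (r : ℝ) : ℝ := r - 1 - Real.log r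

theorem phi_inv (q : ℝ) : phi q⁻¹ = q⁻¹ - 1 + Real.log q := by
  rw [phi, Real.log_inv]; ring

theorem phi_nonneg {r : ℝ} (hr : 0 < r) : 0 ≤ phi r :=
  sub_nonneg.2 (Real.log_le_sub_one_of_pos hr)

theorem two_sub_le (q : ℝ) (hq : 1 ≤ q) : 2 * (q - 1) / (q + 1) ≤ Real.log q := by
  have h := Real.le_log_one_add_of_nonneg (sub_nonneg.2 hq)
  rw [add_sub_cancel, show q - 1 + 2 = q + 1 by ring] at h
  exact h

theorem sq_log_le_phi {q : ℝ} (hq : 0 < q) :
    Real.log q ^ 2 / (2 + max (Real.log q) 0) ≤ phi q⁻¹ := by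
  set L := Real.log q with hL
  have e : phi q⁻¹ = Real.exp (-L) - 1 + L := by
    rw [phi_inv, Real.exp_neg, hL, Real.exp_log hq]
  rw [e]
  rcases le_total L 0 with h | h
  · rw [max_eq_right h, add_zero]
    have := Real.quadratic_le_exp_of_nonneg (neg_nonneg.2 h)
    nlinarith
  · rw [max_eq_left h]
    have h1 := two_sub_le (Real.exp L) (Real.one_le_exp h)
    rw [Real.log_exp, div_le_iff₀ (by positivity)] at h1
    rw [div_le_iff₀ (by positivity)]
    have h2 : Real.exp (-L) * Real.exp L = 1 := by rw [← Real.exp_add]; simp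
    nlinarith [Real.exp_pos (-L), mul_le_mul_of_nonneg_left h1 (Real.exp_pos (-L)).le]

/-- `(q - 1)² / q`, the convex remainder of `1 / r`, is at most `(2 + q) φ`. -/
theorem inv_rem_le {q : ℝ} (hq : 0 < q) : (q - 1) ^ 2 / q ≤ (2 + q) * phi q⁻¹ := by
  rw [phi_inv, div_le_iff₀ hq]
  have e : q⁻¹ * q = 1 := inv_mul_cancel₀ hq.ne'
  rcases le_total 1 q with h | h
  · have h1 := two_sub_le q h
    rw [div_le_iff₀ (by positivity)] at h1
    have : (2 + q) * (q⁻¹ - 1 + Real.log q) * q =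
        (2 + q) * (1 - q + q * Real.log q) := by linear_combination (2 + q) * e
    rw [this]
    refine le_of_mul_le_mul_right ?_ (show 0 < q + 1 by linarith)
    nlinarith [mul_le_mul_of_nonneg_left h1 (show 0 ≤ q * (2 + q) by positivity)]
  · have h0 : 0 ≤ -Real.log q := neg_nonneg.2 (Real.log_nonpos hq.le h)
    have h1 := Real.self_le_sinh_iff.2 h0
    rw [Real.sinh_eq, neg_neg, Real.exp_log hq, Real.exp_neg, Real.exp_log hq, le_div_iff₀ two_pos] at h1
    have : (2 + q) * (q⁻¹ - 1 + Real.log q) * q =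
        (2 + q) * (1 - q + q * Real.log q) := by linear_combination (2 + q) * e
    rw [this]
    have h2 := mul_le_mul_of_nonneg_left h1 (show 0 ≤ q * (2 + q) by positivity)
    nlinarith [h2, mul_nonneg hq.le (mul_nonneg hq.le (sub_nonneg.2 h)), sq_nonneg (q - 1)]

theorem sq_le_phi {q : ℝ} (hq : 0 < q) : (q - 1) ^ 2 / (2 * max 1 q ^ 2) ≤ phi q⁻¹ := by
  rcases le_total q 1 with h | h
  · rw [max_eq_left h]
    have hr : 1 ≤ q⁻¹ := (one_le_inv₀ hq).2 h
    have h0 := Real.log_nonpos hq.le h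
    have h1 := Real.self_le_sinh_iff.2 (neg_nonneg.2 h0)
    rw [Real.sinh_eq, neg_neg, Real.exp_log hq, Real.exp_neg, Real.exp_log hq, le_div_iff₀ two_pos] at h1
    rw [phi_inv]
    have e : q⁻¹ * q = 1 := inv_mul_cancel₀ hq.ne'
    nlinarith [mul_nonneg (sq_nonneg (q - 1)) (sub_nonneg.2 hr)]
  · rw [max_eq_right h, phi_inv, div_le_iff₀ (by positivity)]
    have h1 := two_sub_le q h
    rw [div_le_iff₀ (by positivity)] at h1
    have : (q⁻¹ - 1 + Real.log q) * (2 * q ^ 2) = 2 * q * (1 - q + q * Real.log q) := by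
      field_simp
    rw [this]
    refine le_of_mul_le_mul_right ?_ (show 0 < q + 1 by linarith)
    nlinarith [mul_le_mul_of_nonneg_left h1 (show 0 ≤ 2 * q ^ 2 by positivity),
      mul_nonneg (sub_nonneg.2 h) (sq_nonneg (q - 1))]

end Vale.Agent.P237.Petty.LargeN
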