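import Vale.Agent.P237.Petty.Threshold

/-!
# P237: bounds for the constants of the one-variable inequality, explicit in the dimension

With `m = p + 1`, the ratio `b = circ m / circ (m - 1)` satisfies `b_j b_{j+1} = (j+2)/(j+3)`, which
gives two-sided bounds of `b²` up to `O(m⁻³)`; hence the multipliers `muMin` and `nuMin` are
`3/4` and `1/8` up to `O(1/m)`, and the volume threshold allows every `s₀` with
`s₀ ^ m ≤ 2 / (5 √n)`.
-/

namespace Vale.Agent.P237.Petty.LargeN

open MeasureTheory Set Filter Topology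

theorem kappa_zero : kappa 0 = 1 := by
  have h := circ_eq 0
  rw [zero_add, kappa_one] at h
  have e : circ 0 = 2 := by simp [circ]; norm_num
  rw [e, eq_div_iff (kappa_pos 0).ne'] at h
  linarith

theorem circ_step (j : ℕ) : ((j : ℝ) + 3) * circ (j + 2) = ((j : ℝ) + 2) * circ j := circle_step j

theorem circ_succ_le (j : ℕ) : circ (j + 1) ≤ circ j := by
  refine intervalIntegral.integral_mono_on (by norm_num)
    (Continuous.intervalIntegrable (by fun_prop) _ _)
    (Continuous.intervalIntegrable (by fun_prop) _ _) fun t _ => ?_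
  exact pow_le_pow_of_le_one (Real.sqrt_nonneg _)
    (Real.sqrt_le_one.2 (by nlinarith [sq_nonneg t])) (Nat.le_succ j)

theorem circ_sq_le (j : ℕ) : circ (j + 1) ^ 2 ≤ circ j * circ (j + 2) := by
  set l := circ (j + 1) / circ j with hl
  have h0 : 0 ≤ ∫ t in (-1 : ℝ)..1, √(1 - t ^ 2) ^ j * (√(1 - t ^ 2) - l) ^ 2 :=
    intervalIntegral.integral_nonneg (by norm_num) fun t _ =>
      mul_nonneg (pow_nonneg (Real.sqrt_nonneg _) _) (sq_nonneg _)
  have e : ∀ t : ℝ, √(1 - t ^ 2) ^ j * (√(1 - t ^ 2) - l) ^ 2 =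
      √(1 - t ^ 2) ^ (j + 2) - 2 * l * √(1 - t ^ 2) ^ (j + 1) + l ^ 2 * √(1 - t ^ 2) ^ j :=
    fun t => by ring
  simp only [e] at h0
  have hi : ∀ i : ℕ, IntervalIntegrable (fun t : ℝ => √(1 - t ^ 2) ^ i) volume (-1) 1 :=
    fun i => Continuous.intervalIntegrable (by fun_prop) _ _
  rw [intervalIntegral.integral_add ((hi _).sub ((hi _).const_mul _)) ((hi _).const_mul _),
    intervalIntegral.integral_sub (hi _) ((hi _).const_mul _),
    intervalIntegral.integral_const_mul, intervalIntegral.integral_const_mul] at h0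
  change 0 ≤ circ (j + 2) - 2 * l * circ (j + 1) + l ^ 2 * circ j at h0
  have := circ_pos j
  have e2 : circ (j + 2) - 2 * l * circ (j + 1) + l ^ 2 * circ j =
      (circ j * circ (j + 2) - circ (j + 1) ^ 2) / circ j := by
    rw [hl]; field_simp; ring
  rw [e2, div_nonneg_iff] at h0
  rcases h0 with ⟨h, -⟩ | ⟨-, h⟩ <;> linarith

theorem circ_mul_succ (j : ℕ) : circ j * circ (j + 1) = 2 * Real.pi / ((j : ℝ) + 2) := by
  induction j with
  | zero =>
    rw [circ_eq, circ_eq, zero_add, kappa_one, kappa_two]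
    have h0 : kappa 0 = 1 := kappa_zero
    rw [h0]
    push_cast
    field_simp
    norm_num
  | succ j ih =>
    have h := circ_step j
    have e : circ (j + 1) * circ (j + 2) = circ j * circ (j + 1) * (((j : ℝ) + 2) / ((j : ℝ) + 3)) := by
      field_simp
      linear_combination circ (j + 1) * h
    rw [show j + 1 + 1 = j + 2 from rfl, e, ih]
    push_cast
    field_simp
    ring

theorem le_circ_sq (j : ℕ) : 2 * Real.pi / ((j : ℝ) + 2) ≤ circ j ^ 2 := by
  rw [← circ_mul_succ, sq]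
  exact mul_le_mul_of_nonneg_left (circ_succ_le j) (circ_pos j).le

theorem circ_succ_sq_le (j : ℕ) : circ (j + 1) ^ 2 ≤ 2 * Real.pi / ((j : ℝ) + 2) := by
  rw [← circ_mul_succ, sq]
  exact mul_le_mul_of_nonneg_right (circ_succ_le j) (circ_pos _).le

theorem circ_sq_le_div (j : ℕ) (hj : 1 ≤ j) : circ j ^ 2 ≤ 2 * Real.pi / ((j : ℝ) + 1) := by
  obtain ⟨i, rfl⟩ : ∃ i, j = i + 1 := ⟨j - 1, by omega⟩
  refine (circ_succ_sq_le i).trans (le_of_eq ?_)
  push_cast
  ring

/-- The square of the ratio `circ (p + 1) / circ p`. -/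
noncomputable def ratSq (p : ℕ) : ℝ := (circ (p + 1) / circ p) ^ 2

theorem ratSq_pos (p : ℕ) : 0 < ratSq p := pow_pos (div_pos (circ_pos _) (circ_pos _)) 2

theorem ratSq_mul (j : ℕ) :
    ratSq j * ratSq (j + 1) = (((j : ℝ) + 2) / ((j : ℝ) + 3)) ^ 2 := by
  have h := circ_step j
  have h1 := (circ_pos j).ne'
  have h2 := (circ_pos (j + 1)).ne'
  rw [ratSq, ratSq, ← mul_pow]
  congr 1
  rw [show j + 1 + 1 = j + 2 from rfl]
  field_simp
  linear_combination h

theorem ratSq_mono (j : ℕ) : ratSq j ≤ ratSq (j + 1) := by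
  refine pow_le_pow_left₀ (div_nonneg (circ_pos _).le (circ_pos _).le) ?_ 2
  rw [div_le_div_iff₀ (circ_pos _) (circ_pos _)]
  linarith [circ_sq_le j]

theorem ratSq_le_crude (j : ℕ) : ratSq j ≤ ((j : ℝ) + 2) / ((j : ℝ) + 3) := by
  refine (pow_le_pow_iff_left₀ (ratSq_pos j).le (by positivity) two_ne_zero).1 ?_
  rw [← ratSq_mul, sq]
  exact mul_le_mul_of_nonneg_left (ratSq_mono j) (ratSq_pos j).le

theorem crude_le_ratSq (j : ℕ) : ((j : ℝ) + 1) / ((j : ℝ) + 2) ≤ ratSq j := by
  rcases Nat.eq_zero_or_pos j with rfl | hj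
  · have h : ratSq 0 = (Real.pi / 4) ^ 2 := by
      have h0 : kappa 0 = 1 := kappa_zero
      rw [ratSq, circ_eq, circ_eq, zero_add, kappa_one, kappa_two, h0]
      congr 1
      ring
    rw [h]
    push_cast
    nlinarith [Real.pi_gt_three]
  · obtain ⟨i, rfl⟩ : ∃ i, j = i + 1 := ⟨j - 1, by omega⟩
    refine (pow_le_pow_iff_left₀ (by positivity) (ratSq_pos _).le two_ne_zero).1 ?_
    push_cast
    rw [show (i : ℝ) + 1 + 1 = i + 2 by ring, show (i : ℝ) + 1 + 2 = i + 3 by ring, ← ratSq_mul, sq]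
    exact mul_le_mul_of_nonneg_right (ratSq_mono i) (ratSq_pos _).le

/-- The lower comparison function of `ratSq`. -/
noncomputable def low (j : ℕ) : ℝ := (2 * (j : ℝ) + 3) / (2 * (j : ℝ) + 5)

theorem low_le_ratSq (j : ℕ) : low j ≤ ratSq j := by
  set y : ℕ → ℝ := fun i => ratSq i / low i with hy
  have hlp : ∀ i, 0 < low i := fun i => by unfold low; positivity
  have hstep : ∀ i, y (i + 2) ≤ y i := by
    intro i
    have h1 := ratSq_mul i
    have h2 := ratSq_mul (i + 1)
    have hx := ratSq_pos i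
    have hx1 := ratSq_pos (i + 1)
    rw [show i + 1 + 1 = i + 2 from rfl] at h2
    have e : ratSq (i + 2) =
        ratSq i * ((((i : ℝ) + 3) / ((i : ℝ) + 4)) ^ 2 / (((i : ℝ) + 2) / ((i : ℝ) + 3)) ^ 2) := by
      rw [← h1]
      push_cast at h2
      rw [show (i : ℝ) + 1 + 2 = i + 3 by ring, show (i : ℝ) + 1 + 3 = i + 4 by ring] at h2
      rw [← h2]
      field_simp
    simp only [hy]
    rw [div_le_div_iff₀ (hlp _) (hlp _), e, mul_assoc]
    refine mul_le_mul_of_nonneg_left ?_ hx.le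
    unfold low
    push_cast
    rw [div_pow, div_pow, div_div_div_eq, div_mul_div_comm, div_le_div_iff₀ (by positivity)
      (by positivity)]
    have hi : (0 : ℝ) ≤ i := Nat.cast_nonneg i
    nlinarith [mul_nonneg hi hi, mul_nonneg (mul_nonneg hi hi) hi,
      mul_nonneg (mul_nonneg hi hi) (mul_nonneg hi hi),
      mul_nonneg (mul_nonneg (mul_nonneg hi hi) (mul_nonneg hi hi)) hi]
  have hanti : ∀ k, y (j + 2 * k) ≤ y j := by
    intro k
    induction k with
    | zero => simp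
    | succ k ih => exact (hstep _).trans ih
  have hlim : Tendsto y atTop (𝓝 1) := by
    have hc : ∀ a b : ℝ, Tendsto (fun i : ℕ => ((i : ℝ) + a) / ((i : ℝ) + b)) atTop (𝓝 1) := by
      intro a b
      have e : Tendsto (fun i : ℕ => 1 + (a - b) / ((i : ℝ) + b)) atTop (𝓝 (1 + 0)) :=
        tendsto_const_nhds.add (tendsto_const_nhds.div_atTop
          (tendsto_atTop_add_const_right _ b tendsto_natCast_atTop_atTop))
      rw [add_zero] at e
      refine e.congr' ?_
      filter_upwards [(tendsto_atTop_add_const_right _ b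
        tendsto_natCast_atTop_atTop).eventually_gt_atTop 0] with i hi
      field_simp
      ring
    have hl : Tendsto low atTop (𝓝 1) := (hc (3 / 2) (5 / 2)).congr fun i => by
      unfold low; field_simp
    have hx : Tendsto ratSq atTop (𝓝 1) :=
      tendsto_of_tendsto_of_tendsto_of_le_of_le (hc 1 2) (hc 2 3) crude_le_ratSq ratSq_le_crude
    have h := hx.div hl one_ne_zero
    rw [div_one] at h
    exact h
  have hsub : Tendsto (fun k => y (j + 2 * k)) atTop (𝓝 1) :=
    hlim.comp (tendsto_atTop_mono (fun k => show k ≤ j + 2 * k by omega) tendsto_id)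
  have h := le_of_tendsto hsub (Eventually.of_forall hanti)
  exact (one_le_div (hlp j)).1 h

theorem ratSq_succ_le (j : ℕ) :
    ratSq (j + 1) ≤ (((j : ℝ) + 2) / ((j : ℝ) + 3)) ^ 2 / low j := by
  rw [← ratSq_mul, le_div_iff₀ (by unfold low; positivity), mul_comm (ratSq j)]
  exact mul_le_mul_of_nonneg_left (low_le_ratSq j) (ratSq_pos _).le

/-- The ellipse weight `L = mu / 2 + nu`. -/
noncomputable def bigL (p : ℕ) : ℝ := (p : ℝ) / (2 * ((p : ℝ) + 4) * ratSq p)

/-- The first order value of `mu`. -/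
noncomputable def muMin (p : ℕ) : ℝ :=
  ((p : ℝ) + 2) * bigL p * (((p : ℝ) + 4) * (1 - ratSq p) - 1)

/-- The first order value of `nu`. -/
noncomputable def nuMin (p : ℕ) : ℝ := bigL p - muMin p / 2

theorem bigL_bounds (p : ℕ) :
    1 / 2 - 2 / ((p : ℝ) + 1) ≤ bigL p ∧ bigL p ≤ 1 / 2 := by
  have hx := ratSq_pos p
  have h1 := low_le_ratSq p
  have h2 := ratSq_le_crude p
  have hp : (0 : ℝ) ≤ p := Nat.cast_nonneg p
  rw [low, div_le_iff₀ (by positivity)] at h1
  rw [le_div_iff₀ (by positivity)] at h2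
  unfold bigL
  constructor
  · rw [sub_le_iff_le_add, div_add_div _ _ (by positivity) (by positivity),
      le_div_iff₀ (by positivity)]
    nlinarith [mul_le_mul_of_nonneg_left h2 (mul_nonneg hp hp), mul_le_mul_of_nonneg_left h2 hp]
  · rw [div_le_iff₀ (by positivity)]
    nlinarith [mul_le_mul_of_nonneg_left h1 hp]

theorem muMin_le (p : ℕ) : muMin p ≤ 3 / 4 := by
  have hx := ratSq_pos p
  have hp : (0 : ℝ) ≤ p := Nat.cast_nonneg p
  have h1 := low_le_ratSq p
  rw [low, div_le_iff₀ (by positivity)] at h1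
  have e : muMin p = ((p : ℝ) + 2) * p * (((p : ℝ) + 4) * (1 - ratSq p) - 1) /
      (2 * ((p : ℝ) + 4) * ratSq p) := by
    rw [muMin, bigL]; ring
  rw [e, div_le_iff₀ (by positivity)]
  nlinarith [mul_le_mul_of_nonneg_left h1 hp, mul_le_mul_of_nonneg_left h1 (mul_nonneg hp hp),
    mul_le_mul_of_nonneg_left h1 (mul_nonneg (mul_nonneg hp hp) hp)]

theorem le_muMin (p : ℕ) (hp1 : 1 ≤ p) : 3 / 4 - 3 / ((p : ℝ) + 1) ≤ muMin p := by
  obtain ⟨j, rfl⟩ : ∃ j, p = j + 1 := ⟨p - 1, by omega⟩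
  have hx := ratSq_pos (j + 1)
  have hj : (0 : ℝ) ≤ j := Nat.cast_nonneg j
  have h1 := ratSq_succ_le j
  rw [low, div_div_eq_mul_div, div_pow, div_mul_eq_mul_div, div_div, le_div_iff₀ (by positivity)] at h1
  have e : muMin (j + 1) = ((j : ℝ) + 3) * ((j : ℝ) + 1) * (((j : ℝ) + 5) * (1 - ratSq (j + 1)) - 1) /
      (2 * ((j : ℝ) + 5) * ratSq (j + 1)) := by
    rw [muMin, bigL]; push_cast; ring
  rw [e, le_div_iff₀ (by positivity)]
  push_cast
  rw [sub_mul, sub_le_iff_le_add, div_mul_eq_mul_div _ ((j : ℝ) + 1 + 1),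
    ← sub_le_iff_le_add', le_div_iff₀ (by positivity)]
  nlinarith [mul_le_mul_of_nonneg_left h1 hj, mul_le_mul_of_nonneg_left h1 (mul_nonneg hj hj),
    mul_le_mul_of_nonneg_left h1 (mul_nonneg (mul_nonneg hj hj) hj), mul_pos hx hx]

theorem nuMin_bounds (p : ℕ) (hp1 : 1 ≤ p) :
    1 / 8 - 2 / ((p : ℝ) + 1) ≤ nuMin p ∧ nuMin p ≤ 1 / 8 + 3 / 2 / ((p : ℝ) + 1) := by
  obtain ⟨h1, h2⟩ := bigL_bounds p
  have h3 := muMin_le p
  have h4 := le_muMin p hp1
  have e : 3 / 2 / ((p : ℝ) + 1) = 3 / ((p : ℝ) + 1) / 2 := by ring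
  unfold nuMin
  constructor <;> rw [e] at * <;> linarith

theorem nuMin_nonneg (p : ℕ) (hp : 15 ≤ p) : 0 ≤ nuMin p := by
  refine le_trans ?_ (nuMin_bounds p (by omega)).1
  have : (15 : ℝ) ≤ p := by exact_mod_cast hp
  rw [sub_nonneg, div_le_iff₀ (by positivity)]
  linarith

theorem muMin_nonneg (p : ℕ) (hp : 3 ≤ p) : 0 ≤ muMin p := by
  refine le_trans ?_ (le_muMin p (by omega))
  have : (3 : ℝ) ≤ p := by exact_mod_cast hp
  rw [sub_nonneg, div_le_iff₀ (by positivity)]
  linarith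

theorem kappa_add_two (n : ℕ) : kappa (n + 2) = kappa n * (2 * Real.pi / ((n : ℝ) + 2)) := by
  rw [← circ_mul_succ, circ_eq, circ_eq, show n + 1 + 1 = n + 2 from rfl]
  have := (kappa_pos n).ne'
  have := (kappa_pos (n + 1)).ne'
  field_simp

/-- A lower bound of the volume of the ball, sharp up to a constant factor. -/
theorem kappa_sq_ge (n : ℕ) (hn : 1 ≤ n) :
    (2 * Real.pi * Real.exp 1) ^ n / (5 * (n : ℝ) ^ (n + 1)) ≤ kappa n ^ 2 := by
  set u : ℕ → ℝ := fun i => kappa i ^ 2 * (i : ℝ) ^ (i + 1) / (2 * Real.pi * Real.exp 1) ^ i with hu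
  have hstep : ∀ i, 1 ≤ i → u i ≤ u (i + 2) := by
    intro i hi
    have hi0 : (0 : ℝ) < i := by exact_mod_cast hi
    have he : Real.exp 2 ≤ (1 + 2 / (i : ℝ)) ^ (i + 1) := by
      rw [← Real.exp_log (show 0 < (1 + 2 / (i : ℝ)) ^ (i + 1) by positivity), Real.exp_le_exp,
        Real.log_pow]
      have h := Real.le_log_one_add_of_nonneg (show 0 ≤ 2 / (i : ℝ) by positivity)
      have h' := mul_le_mul_of_nonneg_left h (show (0 : ℝ) ≤ ((i + 1 : ℕ) : ℝ) by positivity)
      refine le_trans (le_of_eq ?_) h'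
      push_cast
      field_simp
      ring
    have he2 : Real.exp 2 = Real.exp 1 ^ 2 := by rw [← Real.exp_nat_mul]; norm_num
    have hk := kappa_pos i
    have e : u (i + 2) = u i * ((1 + 2 / (i : ℝ)) ^ (i + 1) / Real.exp 1 ^ 2) := by
      simp only [hu]
      rw [kappa_add_two, show 1 + 2 / (i : ℝ) = ((i : ℝ) + 2) / i by field_simp, div_pow]
      push_cast
      field_simp
      ring
    rw [e]
    refine le_mul_of_one_le_right (by simp only [hu]; positivity) ?_
    rw [one_le_div (by positivity), ← he2]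
    exact he
  have hbound : ∀ i, 1 ≤ i → 1 / 5 ≤ u i := by
    intro i
    induction i using Nat.twoStepInduction with
    | zero => omega
    | one =>
      intro _
      simp only [hu]
      rw [kappa_one]
      have h1 := Real.pi_lt_d2
      have h2 := Real.exp_one_lt_d9
      have h3 := Real.pi_pos
      rw [le_div_iff₀ (by positivity)]
      push_cast
      nlinarith [Real.exp_pos 1]
    | more i ih _ =>
      intro _
      rcases Nat.eq_zero_or_pos i with rfl | hi
      · simp only [hu]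
        rw [kappa_two, le_div_iff₀ (by positivity)]
        have h2 := Real.exp_one_lt_d9
        push_cast
        rw [mul_pow, mul_pow]
        have : Real.exp 1 ^ 2 ≤ 2.72 ^ 2 := pow_le_pow_left₀ (Real.exp_pos 1).le (by linarith) 2
        nlinarith [mul_le_mul_of_nonneg_left this (sq_nonneg Real.pi)]
      · exact (ih hi).trans (hstep i hi)
  have h := hbound n hn
  simp only [hu] at h
  have hn0 : (0 : ℝ) < n := by exact_mod_cast hn
  rw [le_div_iff₀ (by positivity)] at h
  rw [div_le_iff₀ (by positivity)]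
  linarith

/-- The volume threshold is met by every `s₀` with `s₀ ^ (p + 1) ≤ 2 / (5 √(p + 2))`. -/
theorem threshold_le {p : ℕ} {s₀ : ℝ} (hs0 : 0 ≤ s₀)
    (hs : s₀ ^ (p + 1) ≤ 2 / (5 * √((p : ℝ) + 2))) :
    (circ p ^ (p + 1) / circ (p + 1) ^ p) ^ (p + 2) * s₀ ^ (p + 1) ≤ kappa (p + 2) := by
  have hp : (0 : ℝ) ≤ p := Nat.cast_nonneg p
  have hc := circ_pos p
  have hc1 := circ_pos (p + 1)
  have hm : (0 : ℝ) < (p : ℝ) + 1 := by positivity
  set X := circ p ^ (p + 1) / circ (p + 1) ^ p with hX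
  have hX0 : 0 ≤ X := by positivity
  -- the base
  have hXsq : X ^ 2 ≤ 2 * Real.pi / ((p : ℝ) + 1) * (((p : ℝ) + 2) / ((p : ℝ) + 1)) ^ p := by
    have e : X ^ 2 = circ p ^ 2 * (ratSq p)⁻¹ ^ p := by
      rw [hX, ratSq, inv_pow, ← pow_mul, div_pow, div_pow, inv_div, ← pow_mul, ← pow_mul,
        ← mul_div_assoc, ← pow_add]
      ring_nf
    rw [e]
    refine mul_le_mul ?_ (pow_le_pow_left₀ (inv_nonneg.2 (ratSq_pos p).le) ?_ p)
      (pow_nonneg (inv_nonneg.2 (ratSq_pos p).le) _) (by positivity)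
    · rcases Nat.eq_zero_or_pos p with rfl | hp1
      · have : circ 0 = 2 := by simp [circ]; norm_num
        rw [this]
        push_cast
        linarith [Real.pi_gt_three]
      · exact circ_sq_le_div p hp1
    · rw [inv_le_comm₀ (ratSq_pos p) (by positivity), inv_div]
      exact crude_le_ratSq p
  -- the exponential
  have hexp : (((p : ℝ) + 2) / ((p : ℝ) + 1)) ^ (p + 1) ≤ Real.exp 1 := by
    rw [← Real.exp_log (show 0 < (((p : ℝ) + 2) / ((p : ℝ) + 1)) ^ (p + 1) by positivity),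
      Real.exp_le_exp, Real.log_pow]
    have h := Real.log_le_sub_one_of_pos (show 0 < ((p : ℝ) + 2) / ((p : ℝ) + 1) by positivity)
    have h' := mul_le_mul_of_nonneg_left h hm.le
    push_cast
    refine h'.trans (le_of_eq ?_)
    field_simp
    ring
  have hk := kappa_sq_ge (p + 2) (by omega)
  push_cast at hk
  refine (pow_le_pow_iff_left₀ (by positivity) (kappa_pos _).le two_ne_zero).1 (le_trans ?_ hk)
  rw [mul_pow, ← pow_mul, mul_comm (p + 2) 2, pow_mul]
  have hs2 : (s₀ ^ (p + 1)) ^ 2 ≤ 4 / (25 * ((p : ℝ) + 2)) := by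
    refine (pow_le_pow_left₀ (by positivity) hs 2).trans (le_of_eq ?_)
    rw [div_pow, mul_pow, Real.sq_sqrt (by positivity)]
    norm_num
  refine (mul_le_mul (pow_le_pow_left₀ (by positivity) hXsq _) hs2 (by positivity)
    (by positivity)).trans ?_
  have e1 : (2 * Real.pi / ((p : ℝ) + 1) * (((p : ℝ) + 2) / ((p : ℝ) + 1)) ^ p) ^ (p + 2) =
      (2 * Real.pi) ^ (p + 2) / ((p : ℝ) + 2) ^ (p + 2) *
        ((((p : ℝ) + 2) / ((p : ℝ) + 1)) ^ (p + 1)) ^ (p + 2) := by
    rw [← div_pow, ← mul_pow]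
    congr 1
    rw [pow_succ]
    field_simp
  rw [e1]
  refine (mul_le_mul_of_nonneg_right (mul_le_mul_of_nonneg_left (pow_le_pow_left₀ (by positivity)
    hexp _) (by positivity)) (by positivity)).trans ?_
  rw [mul_pow (2 * Real.pi) (Real.exp 1), pow_succ ((p : ℝ) + 2) (p + 2)]
  have hP : 0 < (2 * Real.pi) ^ (p + 2) * Real.exp 1 ^ (p + 2) := by positivity
  rw [div_mul_eq_mul_div, div_mul_div_comm, div_le_div_iff₀ (by positivity) (by positivity)]
  have hN : 0 < ((p : ℝ) + 2) ^ (p + 2) * ((p : ℝ) + 2) := by positivity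
  nlinarith [mul_pos hP hN]

end Vale.Agent.P237.Petty.LargeN
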